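import Vale.Agent.P002A30.Fin
import Vale.Agent.P002G96.Geo
import Vale.Agent.P002S14.SS

/-!
# P002: potential density of integral points on the character varieties of smooth algebraic curves
-/

open Matrix
open Vale.Agent.P299G40 (PN IsSmoothVariety)

namespace Vale.Agent.Results.P002.AAlgebraicCurves

open Vale.Agent.P002A

/-- `Z ⊆ P^N` is a smooth projective curve, `D` a finite set of its points (possibly empty),
`X = Z ∖ D`. For every presentation of `π_1(X, x₀)` with finitely many generators and every `r`: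
`Rep_r` represents `A ↦ Hom(π_1, SL_r(A))`; without conditions, the `𝓞 L`-points of
`M_r = Spec 𝒪(Rep_r)^{SL_r}` are Zariski dense in `M_r(ℂ)` for some number field `L`; for all
meridians `γ j` and quasi-unipotent `C j` they are dense in `Y` for some `L`, and so are the
`𝓞 L`-points of `Rep_r` in the set of representations above `Y`. Dense includes: dense in every
irreducible component. -/
theorem result {N : ℕ} (Z : Set (PN N)) (hZ : IsSmoothVariety 1 Z)
    (D : Set (An Z)) (hD : D.Finite) (x₀ : ↥Dᶜ) :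
    PathConnectedSpace ↥Dᶜ ∧ Group.IsFinitelyPresented (FundamentalGroup ↥Dᶜ x₀) ∧
    (∀ p ∈ D, ∃ γ, IsMeridian D x₀ p γ) ∧
    ∀ (ι : Type) [Finite ι] (R : Set (FreeGroup ι))
      (θ : PresentedGroup R ≃* FundamentalGroup ↥Dᶜ x₀) (r : ℕ),
      (∀ (A : Type) [CommRing A],
        (∀ ρ, ∃! x : ORep r R →+* A, IsPointOf θ ρ x) ∧
        ∀ x : ORep r R →+* A, ∃! ρ, IsPointOf θ ρ x) ∧
      (∃ L : IntermediateField ℚ ℂ, FiniteDimensional ℚ L ∧
        DenseIn (intPts (OM r R) L) Set.univ) ∧
      ∀ (s : ℕ) (γ : Fin s → FundamentalGroup ↥Dᶜ x₀) (C : Fin s → SpecialLinearGroup (Fin r) ℂ),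
        (∀ j, ∃ p ∈ D, IsMeridian D x₀ p (γ j)) → (∀ j, IsQuasiUnipotent (C j)) →
        ∃ L : IntermediateField ℚ ℂ, FiniteDimensional ℚ L ∧
          DenseIn (intPts (OM r R) L) (locus θ γ C) ∧
          DenseIn (intPts (ORep r R) L) (repLocus θ γ C) :=
  final_of geo ss Z hZ D hD x₀

end Vale.Agent.Results.P002.AAlgebraicCurves
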